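import Vale.Agent.P207.N4.Dim
import Vale.Agent.P207.N3.H440.Repa
import Vale.Agent.P207.N4.H566.Lift
import Vale.Agent.P207.H248.VarF

/-!
# P207, line N3, R6 (F2b): reparametrised geodesics in `M` and in the covering space, as orbits of
the frame flow

* `rep`: (R) of helper747's note; a curve `c` with `∇_{c'} c' = κ c'` on an open interval is
  `c s = foot (φ_{θ s} y)`, `θ' = σ > 0`, `θ s₀ = 0`, `σ s₀ = σ₀`.
* `rep_left`: (R'), the interval `]-∞, s₀]`.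
* `lift_rep`, `lift_rep_left`: (L), the same in a covering space.
-/

open scoped Manifold ContDiff ENNReal Topology unitInterval
open Bundle MeasureTheory Set Filter Topology

noncomputable section

set_option maxSynthPendingDepth 3
set_option linter.unusedSectionVars false

namespace Vale.Agent.P207.N4.H440

open Vale.Agent.P207.N3 Vale.Agent.P207.N3.H440

variable [Dim]

open Vale.Agent.P255 (RMetric coefIn Gam Riem IsGeo Metric Npc ExpSys toMetric geo expg cc trans IsGeodesic IsGeodesicOn coefL chris chrisB IsMetricOn covD isExp_expg)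
open Vale.Agent.P207 Vale.Agent.P207.Q Vale.Agent.P207.Q.Fl
open Vale.Agent.P207.N3.H465 (Deck PB)
open Vale.Agent.P207.N4.H566 (XF lift f_lift hflow flow_eq_hflow continuous_lift)

variable {n : ℕ} {M : Type} [TopologicalSpace M] [ChartedSpace (EV n) M]
  [IsManifold 𝓘(ℝ, EV n) ∞ M] {g : RMetric (EV n) M}
  [Nonempty (Fr g)] [NeZero n] [CompactSpace M] [T2Space M]

/-- the orbit of the frame flow -/
theorem isGeodesic_orb (y : Fr g) :
    IsGeodesic (mt g) (fun t => (CSys.flow (horVF g (Pi.single 0 1)) t y).pt) :=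
  H248.isGeodesic_hor (isHorFlow_flow g (Pi.single 0 1) y).2

theorem deriv_orb (y : Fr g) {a : M} {t : ℝ}
    (ha : (CSys.flow (horVF g (Pi.single 0 1)) t y).pt ∈ (chartAt (EV n) a).source) :
    HasDerivAt (cc (E := EV n) (fun t => (CSys.flow (horVF g (Pi.single 0 1)) t y).pt) a)
      ((chF a (CSys.flow (horVF g (Pi.single 0 1)) t y).1).2 0) t := by
  have h := H248.deriv_cc_hor (isHorFlow_flow g (Pi.single 0 1) y).2 ha
  refine h.congr_deriv ?_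
  rw [Finset.sum_eq_single 0]
  · rw [Pi.single_eq_same, one_smul]
  · intro i _ hi
    rw [Pi.single_eq_of_ne hi, zero_smul]
  · intro hi
    exact absurd (Finset.mem_univ _) hi

section Rep

variable {J : Set ℝ} {c : ℝ → M} {κ : ℝ → ℝ} {s₀ σ₀ : ℝ} {y : Fr g}

/-- (R) -/
theorem rep (hJ : IsOpen J) (hJ' : J.OrdConnected) (h : IsPre (mt g) c κ J) (hs₀ : s₀ ∈ J)
    (hy : y.pt = c s₀) (hσ₀ : 0 < σ₀) {a : M} (ha : c s₀ ∈ (chartAt (EV n) a).source)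
    (hv : deriv (cc (E := EV n) c a) s₀ = σ₀ • (chF a y.1).2 0) :
    ∀ s ∈ J, HasDerivAt (th κ s₀ σ₀) (sg κ s₀ σ₀ s) s ∧ 0 < sg κ s₀ σ₀ s ∧
      c s = (CSys.flow (horVF g (Pi.single 0 1)) (th κ s₀ σ₀ s) y).pt ∧
      ∀ b, c s ∈ (chartAt (EV n) b).source → deriv (cc (E := EV n) c b) s =
        sg κ s₀ σ₀ s • (chF b (CSys.flow (horVF g (Pi.single 0 1)) (th κ s₀ σ₀ s) y).1).2 0 := by
  intro s hs
  have h00 : (CSys.flow (horVF g (Pi.single 0 1)) 0 y).pt = c s₀ := by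
    rw [CSys.flow_zero]
    exact hy
  have hd0 := deriv_orb (g := g) y (a := a) (t := 0) (by rw [h00]; exact ha)
  have h1 := h.eq_geodesic hJ hJ' hs₀ (isGeodesic_orb y) h00 hσ₀ ha
    (by rw [hv, hd0.deriv, CSys.flow_zero]) hs
  refine ⟨hasDerivAt_th hJ hJ' h.kcont hs₀ σ₀ hs, sg_pos hσ₀ s, h1.1, fun b hb => ?_⟩
  rw [h1.2 b hb, (deriv_orb (g := g) y (a := b) (by rw [← h1.1]; exact hb)).deriv]

/-- (R'): the version with an end point -/
theorem rep_left (h : IsPre (mt g) c κ (Iio s₀)) (hc : ContinuousOn c (Iic s₀))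
    (hκ : ContinuousOn κ (Iic s₀)) (hy : y.pt = c s₀) (hσ₀ : 0 < σ₀) {a : M}
    (ha : c s₀ ∈ (chartAt (EV n) a).source)
    (hv : HasDerivWithinAt (cc (E := EV n) c a) (σ₀ • (chF a y.1).2 0) (Iic s₀) s₀) :
    ∃ κ' : ℝ → ℝ, Continuous κ' ∧ EqOn κ' κ (Iic s₀) ∧
      (∀ s, HasDerivAt (th κ' s₀ σ₀) (sg κ' s₀ σ₀ s) s ∧ 0 < sg κ' s₀ σ₀ s) ∧
      ∀ s ≤ s₀, c s = (CSys.flow (horVF g (Pi.single 0 1)) (th κ' s₀ σ₀ s) y).pt ∧
        ∀ b, c s ∈ (chartAt (EV n) b).source →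
        HasDerivWithinAt (cc (E := EV n) c b) (sg κ' s₀ σ₀ s •
          (chF b (CSys.flow (horVF g (Pi.single 0 1)) (th κ' s₀ σ₀ s) y).1).2 0) (Iic s₀) s := by
  have h00 : (CSys.flow (horVF g (Pi.single 0 1)) 0 y).pt = c s₀ := by
    rw [CSys.flow_zero]
    exact hy
  have hd0 := deriv_orb (g := g) y (a := a) (t := 0) (by rw [h00]; exact ha)
  obtain ⟨κ', h1, h2, h3, h4⟩ := h.eq_geodesic_left (isExp_expg (mt g)) hc hκ
    (isGeodesic_orb y) h00 hσ₀ ha (by rw [hd0.deriv, CSys.flow_zero]; exact hv)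
  refine ⟨κ', h1, h2, fun s => ⟨h3 s, sg_pos hσ₀ s⟩, fun s hs => ⟨(h4 s hs).1, fun b hb => ?_⟩⟩
  have h5 := (h4 s hs).2 b hb
  rwa [(deriv_orb (g := g) y (a := b) (by rw [← (h4 s hs).1]; exact hb)).deriv] at h5

end Rep

/-! ### in the covering space -/

section Cov

variable {A : Type} [TopologicalSpace A] {p : A → M} (hp : IsCoveringMap p)

include hp in
/-- (L) -/
theorem lift_rep {J : Set ℝ} (hJ : IsPreconnected J) {c : ℝ → A} (hc : ContinuousOn c J)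
    {θ : ℝ → ℝ} (hθ : ContinuousOn θ J) {s₀ : ℝ} (hs₀ : s₀ ∈ J) (hθ0 : θ s₀ = 0) {x : XF g p}
    (h : ∀ s ∈ J, p (c s) = (CSys.flow (horVF g (Pi.single 0 1)) (θ s) x.f).pt)
    (h0 : c s₀ = x.q) : ∀ s ∈ J, c s = (lift hp (θ s • Pi.single 0 1) x).q := by
  have h1 : ContinuousOn (fun s => (lift hp (θ s • (Pi.single 0 1 : Fin n → ℝ)) x).q) J := by
    have h2 : Continuous fun q : (Fin n → ℝ) × XF g p => (lift hp q.1 q.2).q :=
      PB.continuous_q.comp (continuous_lift hp)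
    exact h2.comp_continuousOn
      ((hθ.smul continuousOn_const).prodMk continuousOn_const)
  refine hp.eqOn_of_comp_eqOn hJ hc h1 (fun s hs => ?_) hs₀ ?_
  · change p (c s) = p (lift hp (θ s • (Pi.single 0 1 : Fin n → ℝ)) x).q
    rw [h s hs, (lift hp (θ s • (Pi.single 0 1 : Fin n → ℝ)) x).p_q, f_lift, flow_eq_hflow]
  · change c s₀ = (lift hp (θ s₀ • (Pi.single 0 1 : Fin n → ℝ)) x).q
    rw [hθ0, zero_smul, H566.lift_zero, h0]

include hp in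
/-- (R) and (L) -/
theorem rep_cov {J : Set ℝ} (hJ : IsOpen J) (hJ' : J.OrdConnected) {c : ℝ → A} {κ : ℝ → ℝ}
    {s₀ σ₀ : ℝ} (hc : ContinuousOn c J) (h : IsPre (mt g) (fun s => p (c s)) κ J) (hs₀ : s₀ ∈ J)
    {x : XF g p} (h0 : c s₀ = x.q) (hσ₀ : 0 < σ₀) {a : M}
    (ha : p (c s₀) ∈ (chartAt (EV n) a).source)
    (hv : deriv (cc (E := EV n) (fun s => p (c s)) a) s₀ = σ₀ • (chF a x.f.1).2 0) :
    ∀ s ∈ J, HasDerivAt (th κ s₀ σ₀) (sg κ s₀ σ₀ s) s ∧ 0 < sg κ s₀ σ₀ s ∧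
      c s = (lift hp (th κ s₀ σ₀ s • Pi.single 0 1) x).q ∧
      ∀ b, p (c s) ∈ (chartAt (EV n) b).source →
        deriv (cc (E := EV n) (fun s => p (c s)) b) s =
        sg κ s₀ σ₀ s • (chF b (lift hp (th κ s₀ σ₀ s • Pi.single 0 1) x).f.1).2 0 := by
  have hy : x.f.pt = p (c s₀) := by rw [h0, x.p_q]
  have h1 := rep hJ hJ' h hs₀ hy hσ₀ ha hv
  have h2 := lift_rep hp hJ'.isPreconnected hc
    (θ := th κ s₀ σ₀) (fun s hs => (h1 s hs).1.continuousAt.continuousWithinAt) hs₀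
    (th_self κ s₀ σ₀) (fun s hs => (h1 s hs).2.2.1) h0
  intro s hs
  refine ⟨(h1 s hs).1, (h1 s hs).2.1, h2 s hs, fun b hb => ?_⟩
  rw [(h1 s hs).2.2.2 b hb, f_lift, flow_eq_hflow]

include hp in
/-- (R') and (L) -/
theorem rep_cov_left {c : ℝ → A} {κ : ℝ → ℝ} {s₀ σ₀ : ℝ} (hc : ContinuousOn c (Iic s₀))
    (h : IsPre (mt g) (fun s => p (c s)) κ (Iio s₀)) (hκ : ContinuousOn κ (Iic s₀))
    {x : XF g p} (h0 : c s₀ = x.q) (hσ₀ : 0 < σ₀) {a : M}
    (ha : p (c s₀) ∈ (chartAt (EV n) a).source)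
    (hv : HasDerivWithinAt (cc (E := EV n) (fun s => p (c s)) a) (σ₀ • (chF a x.f.1).2 0)
      (Iic s₀) s₀) :
    ∃ κ' : ℝ → ℝ, Continuous κ' ∧ EqOn κ' κ (Iic s₀) ∧
      (∀ s, HasDerivAt (th κ' s₀ σ₀) (sg κ' s₀ σ₀ s) s ∧ 0 < sg κ' s₀ σ₀ s) ∧
      ∀ s ≤ s₀, c s = (lift hp (th κ' s₀ σ₀ s • Pi.single 0 1) x).q ∧
        ∀ b, p (c s) ∈ (chartAt (EV n) b).source →
        HasDerivWithinAt (cc (E := EV n) (fun s => p (c s)) b) (sg κ' s₀ σ₀ s •
          (chF b (lift hp (th κ' s₀ σ₀ s • Pi.single 0 1) x).f.1).2 0) (Iic s₀) s := by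
  have hy : x.f.pt = p (c s₀) := by rw [h0, x.p_q]
  obtain ⟨κ', k1, k2, k3, k4⟩ := rep_left h (hp.continuous.comp_continuousOn hc) hκ hy hσ₀ ha hv
  have h2 := lift_rep hp ordConnected_Iic.isPreconnected hc
    (θ := th κ' s₀ σ₀) (fun s _ => (k3 s).1.continuousAt.continuousWithinAt) (mem_Iic.2 le_rfl)
    (th_self κ' s₀ σ₀) (fun s hs => (k4 s hs).1) h0
  refine ⟨κ', k1, k2, k3, fun s hs => ⟨h2 s hs, fun b hb => ?_⟩⟩
  have h5 := (k4 s hs).2 b hb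
  rwa [flow_eq_hflow, ← f_lift hp] at h5

end Cov

end Vale.Agent.P207.N4.H440
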