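import Vale.Agent.P207.N4.Dim
import Vale.Agent.P207.N4.H440.Rep
import Vale.Agent.P207.N3.H440.Slp
import Vale.Agent.P207.N4.H747.Fermi
import Vale.Agent.P207.N4.H76.Ext
import Vale.Agent.P207.N4.H908.Ext
import Vale.Agent.P207.N4.H566.LiftS

/-!
# P207, line N3, N3-SM3 (S2): the graphs over the axis are the geodesics from `em x`

`graph`: if `u` is defined on `]-∞, 0]` and `s ↦ Fp (x, (s, u s))` is a reparametrised geodesic of
`M`, then in the covering space `Exp (φ_s x) (0, u s) = Exp y (θ s • ζ)`, where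
`y = lift (0, u 0) x` is the transported frame and `ζ = w / |w|`, `w` the components in the frame `y`
of the velocity at the time `0`.
-/

open scoped Manifold ContDiff ENNReal Topology unitInterval
open Bundle MeasureTheory Set Filter Topology Metric

noncomputable section

set_option maxSynthPendingDepth 3
set_option linter.unusedSectionVars false

namespace Vale.Agent.P207.N4.H440

open Vale.Agent.P207.N3 Vale.Agent.P207.N3.H440

variable [Dim]

open Vale.Agent.P255 (RMetric coefIn Gam Riem IsGeo Npc ExpSys toMetric geo expg cc trans IsGeodesic IsGeodesicOn coefL chris chrisB IsMetricOn covD isExp_expg)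
open Vale.Agent.P207 Vale.Agent.P207.Q Vale.Agent.P207.Q.Fl
open Vale.Agent.P207.N3.H465 (Deck PB)
open Vale.Agent.P207.N4.H566 (XF lift f_lift hflow flow_eq_hflow continuous_lift lift_rot Exp lift_add lift_zero)
open Vale.Agent.P207.N4.H747 (fl Lf Fp Lc Fc src DF dir)
open Vale.Agent.P207.N4.H76 (pk tl)
open Vale.Agent.P207.N4.H908 (mo mo_val mat)

section General

variable {n : ℕ} {M : Type} [TopologicalSpace M] [ChartedSpace (EV n) M]
  [IsManifold 𝓘(ℝ, EV n) ∞ M] {g : RMetric (EV n) M}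

/-- the vectors of a rotated frame -/
theorem chF_rot (A : Fr.On n) (f : Fr g) (a : M) (j : Fin n) :
    (chF a (Fr.rot A f).1).2 j = ∑ i, A.1 i j • (chF a f.1).2 i := by
  change fderiv ℝ (trans (EV n) f.pt a) (chartAt (EV n) f.pt f.pt) ((Fr.rot A f).e j) = _
  rw [Fr.rot_e, map_sum]
  refine Finset.sum_congr rfl fun i _ => ?_
  rw [map_smul]
  rfl

theorem mulVec_mo (B : EuclideanSpace ℝ (Fin n) ≃ₗᵢ[ℝ] EuclideanSpace ℝ (Fin n))
    (v : EuclideanSpace ℝ (Fin n)) : (mo B).1.mulVec (fun i => v i) = fun i => B v i := by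
  funext i
  rw [H908.apply_eq]
  rfl

end General

variable {M : Type} [TopologicalSpace M] [ChartedSpace (EV (Dim.m + 1)) M] [IsManifold 𝓘(ℝ, EV (Dim.m + 1)) ∞ M]
  {g : RMetric (EV (Dim.m + 1)) M} [Nonempty (Fr g)] [CompactSpace M] [T2Space M]
  {p : EV (Dim.m + 1) → M} (hp : IsCoveringMap p)

/-- the frame flow of the covering space -/
def flx (t : ℝ) (x : XF g p) : XF g p := lift hp (t • Pi.single 0 1) x

/-- the frame transported along the radius -/
def lfx (x : XF g p) (u : E2) : XF g p := lift hp (fun i => pk 0 u i) x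

theorem single_eq : (Pi.single 0 1 : Fin (Dim.m + 1) → ℝ) =
    fun i => (EuclideanSpace.single (0 : Fin (Dim.m + 1)) (1 : ℝ) : EV (Dim.m + 1)) i := by
  funext i
  refine Fin.cases ?_ (fun j => ?_) i <;> simp

theorem f_flx (t : ℝ) (x : XF g p) : (flx hp t x).f = fl g t x.f := by
  unfold flx fl
  rw [f_lift, flow_eq_hflow]

theorem dir_pk (s : ℝ) (u : E2) : dir (pk s u) = fun i => pk 0 u i := by
  funext i
  refine Fin.cases ?_ (fun j => ?_) i <;> rfl

/-- the frame of `M` under the transported frame -/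
theorem f_lfx_flx (t : ℝ) (x : XF g p) (u : E2) :
    (lfx hp (flx hp t x) u).f = Lf g (x.f, pk t u) := by
  unfold lfx
  rw [f_lift, f_flx]
  unfold Lf hflow
  rw [dir_pk]
  rfl

theorem flx_zero (x : XF g p) : flx hp 0 x = x := by
  unfold flx
  rw [zero_smul, lift_zero]

theorem f_lfx (x : XF g p) (u : E2) : (lfx hp x u).f = Lf g (x.f, pk 0 u) := by
  have h := f_lfx_flx hp 0 x u
  rwa [flx_zero] at h

theorem Exp_flx (t : ℝ) (x : XF g p) (u : E2) :
    Exp hp (flx hp t x) (pk 0 u) = (lfx hp (flx hp t x) u).q := rfl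

theorem p_Exp (t : ℝ) (x : XF g p) (u : E2) :
    p (Exp hp (flx hp t x) (pk 0 u)) = Fp g (x.f, pk t u) := by
  rw [Exp_flx, (lfx hp (flx hp t x) u).p_q, f_lfx_flx]
  rfl

/-- geodesics with any initial direction, as orbits of the frame flow -/
theorem q_lift_rot (B : O3) (t : ℝ) (y : XF g p) :
    (lift hp (t • Pi.single 0 1) (XF.rot (mo B) y)).q =
      Exp hp y (t • B (EuclideanSpace.single 0 1)) := by
  rw [lift_rot, XF.q_rot, Matrix.mulVec_smul, single_eq, mulVec_mo]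
  rfl

theorem continuous_Exp : Continuous fun q : XF g p × EV (Dim.m + 1) => Exp hp q.1 q.2 := by
  have h1 : Continuous fun q : XF g p × EV (Dim.m + 1) => ((fun i => q.2 i, q.1) : (Fin (Dim.m + 1) → ℝ) × XF g p) :=
    (continuous_pi fun i => (EuclideanSpace.proj (𝕜 := ℝ) i).continuous.comp
      continuous_snd).prodMk continuous_fst
  exact PB.continuous_q.comp ((continuous_lift hp).comp h1)

theorem continuous_flx (x : XF g p) : Continuous fun t : ℝ => flx hp t x := by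
  have h1 : Continuous fun t : ℝ => ((t • Pi.single 0 1, x) : (Fin (Dim.m + 1) → ℝ) × XF g p) := by fun_prop
  exact (continuous_lift hp).comp h1

/-- **the graph of a solution is the geodesic with the same velocity at the time `0`** -/
theorem graph (x : XF g p) {u v : ℝ → E2} {κ : ℝ → ℝ}
    (hu : ∀ t ≤ 0, HasDerivWithinAt u (v t) (Iic 0) t)
    (hpre : IsPre (mt g) (fun s => Fp g (x.f, pk s (u s))) κ (Iio 0))
    (hκ : ContinuousOn κ (Iic 0)) {w : EV (Dim.m + 1)} (hw : w ≠ 0) {a : M}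
    (ha : (x.f, pk 0 (u 0)) ∈ src g a)
    (hw' : DF g a (x.f, pk 0 (u 0)) (pk 1 (v 0)) = ∑ i, w i • (Lc g a (x.f, pk 0 (u 0))).2 i) :
    ∃ κ' : ℝ → ℝ, Continuous κ' ∧ EqOn κ' κ (Iic 0) ∧
      (∀ t, HasDerivAt (th κ' 0 ‖w‖) (sg κ' 0 ‖w‖ t) t ∧ 0 < sg κ' 0 ‖w‖ t) ∧
      ∀ t ≤ 0, th κ' 0 ‖w‖ t ≤ 0 ∧ Exp hp (flx hp t x) (pk 0 (u t)) =
        Exp hp (lfx hp x (u 0)) (th κ' 0 ‖w‖ t • (‖w‖⁻¹ • w)) ∧
        ∀ b, Fp g (x.f, pk t (u t)) ∈ (chartAt (EV (Dim.m + 1)) b).source →
          HasDerivWithinAt (fun s => Fc g b (x.f, pk s (u s)))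
            (sg κ' 0 ‖w‖ t • ∑ i, (‖w‖⁻¹ • w) i •
              (chF b (lift hp (fun i => (th κ' 0 ‖w‖ t • (‖w‖⁻¹ • w)) i)
                (lfx hp x (u 0))).f.1).2 i) (Iic 0) t := by
  have hn : 0 < ‖w‖ := norm_pos_iff.2 hw
  have hζ : ‖‖w‖⁻¹ • w‖ = 1 := by
    rw [norm_smul, norm_inv, norm_norm, inv_mul_cancel₀ hn.ne']
  obtain ⟨B, hB⟩ := H76.exists_rot_e0 hζ
  have he0 : H76.e0 = EuclideanSpace.single (0 : Fin (Dim.m + 1)) (1 : ℝ) := by
    ext i
    refine Fin.cases ?_ (fun j => ?_) i <;> simp [H76.e0]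
  have hB' : B (EuclideanSpace.single 0 1) = ‖w‖⁻¹ • w := by rw [← he0]; exact hB
  have huc : ContinuousOn u (Iic 0) := fun t ht => (hu t ht).continuousWithinAt
  have hpk : ContinuousOn (fun t => pk 0 (u t)) (Iic 0) :=
    H76.continuous_pk.comp_continuousOn (continuousOn_const.prodMk huc)
  set c : ℝ → EV (Dim.m + 1) := fun t => Exp hp (flx hp t x) (pk 0 (u t)) with hc
  have hcc : ContinuousOn c (Iic 0) :=
    (continuous_Exp hp).comp_continuousOn
      ((continuous_flx hp x).continuousOn.prodMk hpk)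
  have hpc : ∀ t, p (c t) = Fp g (x.f, pk t (u t)) := fun t => p_Exp hp t x (u t)
  have hpre' : IsPre (mt g) (fun s => p (c s)) κ (Iio 0) := by
    simp only [hpc]
    exact hpre
  set y : XF g p := lfx hp x (u 0) with hy
  have hyf : y.f = Lf g (x.f, pk 0 (u 0)) := f_lfx hp x (u 0)
  have h0 : c 0 = (XF.rot (mo B) y).q := by
    simp only [hc, flx_zero]
    rfl
  have ha' : p (c 0) ∈ (chartAt (EV (Dim.m + 1)) a).source := by
    rw [hpc]
    exact ha
  -- the velocity at the time `0`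
  have hvel : ∀ b, Fp g (x.f, pk 0 (u 0)) ∈ (chartAt (EV (Dim.m + 1)) b).source →
      HasDerivWithinAt (fun s => Fc g b (x.f, pk s (u s)))
        (DF g b (x.f, pk 0 (u 0)) (pk 1 (v 0))) (Iic 0) 0 := by
    intro b hb
    have h1 : HasDerivWithinAt (fun s => pk s (u s)) (pk 1 (v 0)) (Iic 0) 0 := by
      have h2 : HasDerivWithinAt (fun s => (s, u s)) ((1 : ℝ), v 0) (Iic 0) 0 :=
        (hasDerivWithinAt_id 0 _).prodMk (hu 0 le_rfl)
      exact (LinearMap.toContinuousLinearMap H76.pkL).hasFDerivAt.comp_hasDerivWithinAt 0 h2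
    exact (H747.hasFDerivAt_Fc (a := b) (x := x.f) (z := pk 0 (u 0)) hb).comp_hasDerivWithinAt 0 h1
  have hv0 : HasDerivWithinAt (cc (E := EV (Dim.m + 1)) (fun s => p (c s)) a)
      (‖w‖ • (chF a (XF.rot (mo B) y).f.1).2 0) (Iic 0) 0 := by
    have h1 := hvel a ha
    rw [hw'] at h1
    have h2 : ‖w‖ • (chF a (XF.rot (mo B) y).f.1).2 0 =
        ∑ i, w i • (Lc g a (x.f, pk 0 (u 0))).2 i := by
      rw [XF.f_rot, chF_rot, Finset.smul_sum]
      refine Finset.sum_congr rfl fun i _ => ?_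
      have h3 : (mo B).1 i 0 = (‖w‖⁻¹ • w) i := by
        rw [mo_val, hB']
      rw [h3, smul_smul, PiLp.smul_apply, smul_eq_mul, mul_inv_cancel_left₀ hn.ne', hyf]
      rfl
    rw [h2]
    refine h1.congr (fun s _ => ?_) ?_
    · simp only [cc, hpc]
      rfl
    · simp only [cc, hpc]
      rfl
  obtain ⟨κ', k1, k2, k3, k4⟩ := rep_cov_left hp hcc hpre' hκ h0 hn ha' hv0
  refine ⟨κ', k1, k2, k3, fun t ht => ⟨?_, ?_, fun b hb => ?_⟩⟩
  · have hmono : Monotone (th κ' 0 ‖w‖) :=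
      monotone_of_deriv_nonneg (fun t => (k3 t).1.differentiableAt)
        (fun t => by rw [(k3 t).1.deriv]; exact (k3 t).2.le)
    have h1 := hmono ht
    rwa [th_self] at h1
  · have h1 := (k4 t ht).1
    rw [q_lift_rot, hB'] at h1
    exact h1
  · have h1 := (k4 t ht).2 b (by rw [hpc]; exact hb)
    have h2 : (chF b (lift hp (th κ' 0 ‖w‖ t • Pi.single 0 1) (XF.rot (mo B) y)).f.1).2 0 =
        ∑ i, (‖w‖⁻¹ • w) i •
              (chF b (lift hp (fun i => (th κ' 0 ‖w‖ t • (‖w‖⁻¹ • w)) i) y).f.1).2 i := by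
      rw [lift_rot, XF.f_rot, chF_rot]
      refine Finset.sum_congr rfl fun i _ => ?_
      have h3 : (mo B).1 i 0 = (‖w‖⁻¹ • w) i := by
        rw [mo_val, hB']
      rw [h3, Matrix.mulVec_smul, single_eq, mulVec_mo, hB']
      rfl
    rw [h2] at h1
    refine h1.congr (fun s _ => ?_) ?_
    · simp only [cc, hpc]
      rfl
    · simp only [cc, hpc]
      rfl

end Vale.Agent.P207.N4.H440
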