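import Vale.Agent.P207.N4.Dim
import Vale.Agent.P207.N4.H440.Gra
import Vale.Agent.P207.N4.H747.Chr

/-!
# P207, line N3, N3-SM3 (S2): the output

`exists_graph`: for 248's slopes of 747's geodesic equation in Fermi coordinates, every point
`Exp x (0, u)`, `u` small, lies on the geodesic `θ ↦ Exp y (θ • ζ)`, which is a graph
`t ↦ Exp (φ_t x) (0, v t)` over the axis of `x` for all `t ≤ 0`.
-/

open scoped Manifold ContDiff ENNReal Topology unitInterval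
open Bundle MeasureTheory Set Filter Topology Metric

noncomputable section

set_option maxSynthPendingDepth 3
set_option linter.unusedSectionVars false

namespace Vale.Agent.P207.N4.H440

open Vale.Agent.P207.N3 Vale.Agent.P207.N3.H440

variable [Dim]

open Vale.Agent.P255 (RMetric coefIn Gam Riem IsGeo Npc ExpSys toMetric geo expg cc trans IsGeodesic IsGeodesicOn coefL chris chrisB IsMetricOn covD isExp_expg)
open Vale.Agent.P207 Vale.Agent.P207.Q Vale.Agent.P207.Q.Fl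
open Vale.Agent.P207.N3.H465 (Deck PB)
open Vale.Agent.P207.N4.H566 (XF lift Exp)
open Vale.Agent.P207.N4.H747 (fl Lf Fp Lc Fc src DF dir CH TubeR tube ff pregeo psm_CH)
open Vale.Agent.P207.N4.H76 (pk tl)
open Vale.Agent.P207.N3.H248

variable {M : Type} [TopologicalSpace M] [ChartedSpace (EV (Dim.m + 1)) M] [IsManifold 𝓘(ℝ, EV (Dim.m + 1)) ∞ M]
  {g : RMetric (EV (Dim.m + 1)) M} [Nonempty (Fr g)] [CompactSpace M] [T2Space M]
  {p : EV (Dim.m + 1) → M} (hp : IsCoveringMap p)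

/-- the acceleration of the graph -/
def kap (x : Fr g) (u v : ℝ → E2) (s : ℝ) : ℝ :=
  (CH g (x, pk s (u s)) (pk 1 (v s)) (pk 1 (v s))) 0

theorem continuousOn_kap {ρ : ℝ} (hT : TubeR g ρ) (x : Fr g) {u v : ℝ → E2} {J : Set ℝ}
    (hu : ContinuousOn u J) (hv : ContinuousOn v J) (hρ : ∀ s ∈ J, ‖u s‖ < ρ) :
    ContinuousOn (kap x u v) J := by
  have hw : ContinuousOn (fun s => pk s (u s)) J :=
    H76.continuous_pk.comp_continuousOn (continuousOn_id.prodMk hu)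
  have hv1 : ContinuousOn (fun s => pk 1 (v s)) J :=
    H76.continuous_pk.comp_continuousOn (continuousOn_const.prodMk hv)
  have hC : ContinuousOn (fun s => CH g (x, pk s (u s))) J := by
    intro s hs
    have hz : pk s (u s) ∈ tube ρ := by
      change ‖tl (pk s (u s))‖ < ρ
      rw [H76.tl_pk]
      exact hρ s hs
    have h1 : ContinuousAt (fun z => CH g (x, z)) (pk s (u s)) :=
      ((psm_CH hT (p := (x, pk s (u s))) hz).slice).differentiableAt.continuousAt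
    exact ContinuousAt.comp_continuousWithinAt (g := fun z => CH g (x, z)) h1 (hw s hs)
  have h2 : ContinuousOn (fun s => CH g (x, pk s (u s)) (pk 1 (v s)) (pk 1 (v s))) J :=
    (hC.clm_apply hv1).clm_apply hv1
  exact (EuclideanSpace.proj (𝕜 := ℝ) (0 : Fin (Dim.m + 1))).continuous.comp_continuousOn h2

/-- the graph of a solution is a reparametrised geodesic -/
theorem isPre_graph {ρ : ℝ} (hT : TubeR g ρ) (x : Fr g) {u v : ℝ → E2} {J : Set ℝ}
    (hJ : IsOpen J) (hu : ∀ s ∈ J, HasDerivAt u (v s) s)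
    (hv : ∀ s ∈ J, HasDerivAt v (ff g (fl g s x) (u s, v s)) s) (hρ : ∀ s ∈ J, ‖u s‖ < ρ) :
    IsPre (mt g) (fun s => Fp g (x, pk s (u s))) (kap x u v) J where
  cont := by
    have huc : ContinuousOn u J := fun s hs => (hu s hs).continuousAt.continuousWithinAt
    have hw : ContinuousOn (fun s => ((x, pk s (u s)) : Fr g × EV (Dim.m + 1))) J :=
      continuousOn_const.prodMk
        (H76.continuous_pk.comp_continuousOn (continuousOn_id.prodMk huc))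
    exact (Fr.continuous_pt.comp H747.continuous_Lf).comp_continuousOn hw
  kcont := continuousOn_kap hT x (fun s hs => (hu s hs).continuousAt.continuousWithinAt)
    (fun s hs => (hv s hs).continuousAt.continuousWithinAt) hρ
  eqn := fun a s hs ha => by
    obtain ⟨h1, h2⟩ := pregeo hT hJ hu hv hρ hs (a := a) ha
    refine ⟨h1.differentiableAt, ?_⟩
    rw [h1.deriv]
    exact h2

/-- **(S2), for one solution** -/
theorem graph_sol {ρ : ℝ} (hT : TubeR g ρ) (S : USys (Fr g) E2) (hφ : S.φ = fl g)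
    (hf : S.f = ff g) {δ : ℝ} (hδ : δ < ρ) (x : XF g p) {u v : ℝ → E2} (h : S.Sol x.f δ u v)
    {w : EV (Dim.m + 1)} (hw : w ≠ 0) {a : M} (ha : (x.f, pk 0 (u 0)) ∈ src g a)
    (hw' : DF g a (x.f, pk 0 (u 0)) (pk 1 (v 0)) = ∑ i, w i • (Lc g a (x.f, pk 0 (u 0))).2 i) :
    ∃ κ' : ℝ → ℝ, Continuous κ' ∧ EqOn κ' (kap x.f u v) (Iic 0) ∧
      (∀ t, HasDerivAt (th κ' 0 ‖w‖) (sg κ' 0 ‖w‖ t) t ∧ 0 < sg κ' 0 ‖w‖ t) ∧
      ∀ t ≤ 0, th κ' 0 ‖w‖ t ≤ 0 ∧ Exp hp (flx hp t x) (pk 0 (u t)) =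
        Exp hp (lfx hp x (u 0)) (th κ' 0 ‖w‖ t • (‖w‖⁻¹ • w)) ∧
        ∀ b, Fp g (x.f, pk t (u t)) ∈ (chartAt (EV (Dim.m + 1)) b).source →
          HasDerivWithinAt (fun s => Fc g b (x.f, pk s (u s)))
            (sg κ' 0 ‖w‖ t • ∑ i, (‖w‖⁻¹ • w) i •
              (chF b (lift hp (fun i => (th κ' 0 ‖w‖ t • (‖w‖⁻¹ • w)) i)
                (lfx hp x (u 0))).f.1).2 i) (Iic 0) t := by
  have hb : ∀ t ≤ 0, ‖u t‖ < ρ := fun t ht =>
    ((le_max_left _ _ : ‖u t‖ ≤ ‖(u t, v t)‖).trans (h.hb t ht)).trans_lt hδ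
  have huc : ContinuousOn u (Iic 0) := fun t ht => (h.hu t ht).continuousWithinAt
  have hvc : ContinuousOn v (Iic 0) := fun t ht => (h.hp t ht).continuousWithinAt
  have hn : ∀ t : ℝ, t < 0 → Iic (0 : ℝ) ∈ 𝓝 t := fun t ht => Iic_mem_nhds ht
  refine graph hp x h.hu ?_ (continuousOn_kap hT x.f huc hvc hb) hw ha hw'
  refine isPre_graph hT x.f isOpen_Iio (fun s hs => (h.hu s (le_of_lt hs)).hasDerivAt (hn s hs))
    (fun s hs => ?_) fun s hs => hb s (le_of_lt hs)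
  have h1 := (h.hp s (le_of_lt hs)).hasDerivAt (hn s hs)
  rwa [hφ, hf] at h1

/-- **(S2)** -/
theorem exists_graph {ρ : ℝ} (hT : TubeR g ρ) (S : USys (Fr g) E2) (hφ : S.φ = fl g)
    (hf : S.f = ff g) {ε δ : ℝ} (hδ : δ < ρ) {gs : Fr g → E2 → E2} (hg : S.Slope ε δ gs)
    (Mc : Fr g × EV (Dim.m + 1) → EV (Dim.m + 1) →L[ℝ] EV (Dim.m + 1))
    (hMc : ∀ a, ∀ q ∈ src g a, ∀ v, DF g a q v = ∑ i, (Mc q v) i • (Lc g a q).2 i) :
    ∃ ε₁, 0 < ε₁ ∧ ε₁ < ε ∧ ∀ x : XF g p, ∀ u ∈ closedBall (0 : E2) ε₁,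
      Mc (x.f, pk 0 u) (pk 1 (gs x.f u)) ≠ 0 ∧
      ∃ (v : ℝ → E2) (θ : ℝ → ℝ), v 0 = u ∧ θ 0 = 0 ∧ Continuous θ ∧ ∀ t ≤ 0, θ t ≤ 0 ∧
        ‖v t‖ ≤ δ ∧ ‖v t‖ ≤ Real.exp (S.χ / 2 * t) * ‖u‖ ∧ v t ∈ closedBall (0 : E2) ε₁ ∧
        HasDerivWithinAt v (gs (fl g t x.f) (v t)) (Iic 0) t ∧
        Exp hp (flx hp t x) (pk 0 (v t)) = Exp hp (lfx hp x u)
          (θ t • (‖Mc (x.f, pk 0 u) (pk 1 (gs x.f u))‖⁻¹ •
            Mc (x.f, pk 0 u) (pk 1 (gs x.f u)))) := by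
  obtain ⟨ε₁, h0, h1, -, h2, -⟩ := glue (S := S) (fun s t x => by rw [hφ]; exact H747.fl_add s t x) hg
  refine ⟨ε₁, h0, h1, fun x u hu => ?_⟩
  have huε : u ∈ ball (0 : E2) ε := by
    rw [mem_closedBall_zero_iff] at hu
    rw [mem_ball_zero_iff]
    linarith
  obtain ⟨v, q, hv0, hq0, hv, hq, hb⟩ := hg.exist x.f u huε
  have hsol : S.Sol x.f δ v q := USys.Sol.of_hasDerivAt S hv hq hb
  have hdec := h2 x.f v q hsol (by rw [hv0]; exact hu)
  have huρ : ‖u‖ < ρ := by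
    have h3 := hb 0 le_rfl
    rw [hv0] at h3
    exact ((le_max_left _ _ : ‖u‖ ≤ ‖(u, q 0)‖).trans h3).trans_lt hδ
  set a : M := Fp g (x.f, pk 0 u) with ha
  have ha' : (x.f, pk 0 u) ∈ src g a := H747.mem_src_self _
  have hz : (pk 0 u : EV (Dim.m + 1)) ∈ tube ρ := by
    change ‖tl (pk 0 u)‖ < ρ
    rw [H76.tl_pk]
    exact huρ
  have hw : Mc (x.f, pk 0 u) (pk 1 (gs x.f u)) ≠ 0 := by
    intro hcon
    have h3 := hMc a _ ha' (pk 1 (gs x.f u))
    rw [hcon] at h3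
    simp only [PiLp.zero_apply, zero_smul, Finset.sum_const_zero] at h3
    have h4 := hT.DF_injective hz ha' (h3.trans (map_zero _).symm)
    have h5 := congrArg (fun z : EV (Dim.m + 1) => z 0) h4
    simp only [H76.pk_zero, PiLp.zero_apply] at h5
    exact one_ne_zero h5
  refine ⟨hw, v, ?_⟩
  obtain ⟨κ', k1, k2, k3, k4⟩ := graph_sol hp hT S hφ hf hδ x hsol (w := Mc (x.f, pk 0 u)
    (pk 1 (gs x.f u))) hw (a := a) (by rw [hv0]; exact ha')
    (by rw [hv0, hq0]; exact hMc a _ ha' _)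
  refine ⟨th κ' 0 ‖Mc (x.f, pk 0 u) (pk 1 (gs x.f u))‖, hv0, th_self _ _ _,
    continuous_iff_continuousAt.2 fun t => (k3 t).1.continuousAt, fun t ht => ?_⟩
  obtain ⟨m1, m2, -⟩ := k4 t ht
  obtain ⟨d1, d2, d3⟩ := hdec t ht
  rw [hv0] at d1 m2
  refine ⟨m1, (le_max_left _ _ : ‖v t‖ ≤ ‖(v t, q t)‖).trans (hb t ht), d1, d2, ?_, m2⟩
  have h3 := (hv t ht).hasDerivWithinAt (s := Iic 0)
  rwa [d3, hφ] at h3

end Vale.Agent.P207.N4.H440
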